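import Vale.Agent.P218G.L01

/-! Minimal cones which are smooth away from the vertex are planes: no bound on the density. -/

open MeasureTheory Set Filter Topology Metric Real
open scoped ENNReal NNReal RealInnerProductSpace ContDiff

namespace Vale.Agent.P218R18

open Vale.Agent.P218 Vale.Agent.P218G Vale.Agent.P218G.Par Vale.Agent.P218G.GL
open Vale.Agent.P218FT Vale.Agent.P218G.Rg Vale.Agent.P218G.Lit Vale.Agent.P218F.Ends.Crv

lemma grad_perp {C : Set E3} {p n u : E3} {w : E3 → ℝ} (hw : IsEqn C p w) (p0 : p ≠ 0)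
    (hn : ∀ y, ⟪n, y⟫ = 0 → y ≠ 0 → y ∈ C) (hp : ⟪n, p⟫ = 0) (hu : ⟪n, u⟫ = 0) :
    ⟪gradient w p, u⟫ = 0 := by
  have h1 : HasDerivAt (fun s : ℝ => p + s • u) u 0 := by
    simpa using ((hasDerivAt_id (0 : ℝ)).smul_const u).const_add p
  have e : p = p + (0 : ℝ) • u := by simp
  have h2 : Tendsto (fun s : ℝ => p + s • u) (𝓝 0) (𝓝 p) := by
    simpa using h1.continuousAt.tendsto
  rw [inner_grad]
  refine deriv_zero (c := 0)
    ((hw.1.differentiable (by simp) p).hasFDerivAt.comp_hasDerivAt_of_eq 0 h1 e) ?_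
  filter_upwards [h2.eventually hw.2.2, h2.eventually_ne p0] with s a1 a2
  exact a1.1 (hn _ (by rw [inner_add_right, real_inner_smul_right, hp, hu]; simp) a2)

/-- **A minimal cone of multiplicity one which is smooth away from the vertex has density at most
one.** -/
theorem cone_plane' {ν : Measure E3} {D : ℝ} (hE : Ent ν D) {C : Set E3} (hC : IsClosed C)
    (cn : ∀ x ∈ C, ∀ c : ℝ, 0 < c → c • x ∈ C)
    (hν : ν.restrict {0}ᶜ = (μH[2] : Measure E3).restrict (C ∩ {0}ᶜ))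
    (sm : ∀ p ∈ C, p ≠ 0 → (∃ w, IsEqn C p w) ∧ Hv C p = 0)
    {σ : ℝ} (hσ : 0 < σ) : GA ν 0 σ ≤ om0 := by
  have o0 := om0_pos
  obtain ⟨v, hv⟩ := exists_norm_eq E3 zero_le_one
  have z : ({0} : Set E3) ⊆ axis v := singleton_subset_iff.2 ⟨0, zero_smul _ _⟩
  have hG : ENNReal.ofReal (GA ν 0 σ) = ∫⁻ x in C ∩ {0}ᶜ, ENNReal.ofReal (gk0 σ x) ∂μH[2] := by
    rw [← hν, Measure.restrict_eq_self_of_ae_mem (s := ({0} : Set E3)ᶜ)
      (measure_eq_zero_iff_ae_notMem.1 (measure_mono_null z (ent_axis hE hv))), GA,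
      ofReal_integral_eq_lintegral_ofReal (hE.int 0 σ hσ)
        (Eventually.of_forall fun x => (gk0_pos hσ _).le)]
    simp only [sub_zero]
  rw [← ENNReal.ofReal_le_ofReal_iff o0.le, hG]
  rcases (C ∩ {0}ᶜ).eq_empty_or_nonempty with h | ⟨x, hx⟩
  · simp [h]
  obtain ⟨n, n1, -, hn⟩ := plane_sub hC cn sm hx.1 hx.2
  rw [← lintegral_gk0_plane (finrank_perp n1) hσ]
  refine lintegral_mono_set fun x' hx' => not_not.1 fun c => ?_
  obtain ⟨n', n1', h1, hn'⟩ := plane_sub hC cn sm hx'.1 hx'.2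
  have c' : ⟪n, x'⟫ ≠ 0 := fun e => c (Submodule.mem_orthogonal_singleton_iff_inner_right.2 e)
  have h3 := Submodule.finrank_sup_add_finrank_inf_eq (ℝ ∙ n)ᗮ (ℝ ∙ n')ᗮ
  have h4 := Submodule.finrank_le ((ℝ ∙ n)ᗮ ⊔ (ℝ ∙ n')ᗮ)
  rw [finrank_perp n1, finrank_perp n1'] at h3
  rw [finrank_euclideanSpace_fin] at h4
  obtain ⟨p, ⟨p1, p2⟩, p0⟩ := Submodule.exists_mem_ne_zero_of_ne_bot
    (p := (ℝ ∙ n)ᗮ ⊓ (ℝ ∙ n')ᗮ) fun e => by
      rw [e, finrank_bot] at h3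
      omega
  have q1 := Submodule.mem_orthogonal_singleton_iff_inner_right.1 p1
  have q2 := Submodule.mem_orthogonal_singleton_iff_inner_right.1 p2
  obtain ⟨⟨w, hw⟩, -⟩ := sm p (hn p q1 p0) p0
  have a1 := grad_perp hw p0 hn' q2 h1
  have a2 := grad_perp hw p0 hn q1
    (u := gradient w p - (⟪n, gradient w p⟫ / ⟪n, x'⟫) • x') (by
      rw [inner_sub_right, real_inner_smul_right, div_mul_cancel₀ _ c', sub_self])
  rw [inner_sub_right, real_inner_smul_right, a1, mul_zero, sub_zero] at a2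
  exact hw.2.1 (inner_self_eq_zero.1 a2)

variable {ν μ : ℝ → Measure E3} {a D : ℝ} {x₀ : E3} {t₀ : ℝ}

/-- **static limit cones which are smooth off the vertex** -/
theorem l1_lim' (hμ : IsIntegralBrakkeFlow 2 μ) (h0 : μ 0 univ < ⊤) (hU : IsUnitRegular μ)
    (h : GS μ a D) (ha : 0 ≤ a) (ht : a < t₀) (hb : Lim μ x₀ t₀ ν) (ss : SS ν) (st : Stat ν)
    (hp : ∀ p, p ≠ 0 → GC.DL ν p (-1)) : GA (ν (-1)) 0 1 ≤ om0 := by
  obtain ⟨ι, U, x, t, lam, hb⟩ := hb
  obtain ⟨ε, hε, -, h4⟩ := lim_rs hb hμ h0 hU h ha ht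
  have hg := fun b => (h4 b).gs
  have hK := fun p c => rs_mem h4 hε (hp p c)
  refine cone_plane' ((hg (-1)).ent _ le_rfl) ((hg (-2)).isClosed_spt (by norm_num))
    (spt_cone ss st hg) (restrict_sub ((h4 0).meas _) (measurableSet_singleton 0).compl hK)
    (fun p hp p0 => static_Hv (h4 0).mcf (hK p p0) hp ?_) one_pos
  filter_upwards [gt_mem_nhds (show (-1 : ℝ) < 0 by norm_num)] with s hs
  rwa [st.spt_eq hg hs.le]

end Vale.Agent.P218R18
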