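import Vale.Agent.P218R18.Cone
import Vale.Agent.P218G.GCore

/-! Federer's dimension reduction when no limit cone which splits off a line has density two. -/

open MeasureTheory Set Filter Topology Metric

namespace Vale.Agent.P218R18

open Vale.Agent.P218 Vale.Agent.P218.H552 Vale.Agent.P218G
open Vale.Agent.P218G.Lit Vale.Agent.P218G.Rg Vale.Agent.P218G.GL Vale.Agent.P218G.GC
open Vale.Agent.P218FT (E3 IsShr)
open Vale.Agent.P218F.Dyn (hm)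

/-- static limit cones which are invariant along a line have density less than two -/
def NoCone (μ : ℝ → Measure E3) (x₀ : E3) (t₀ : ℝ) : Prop :=
  ∀ ν, Lim μ x₀ t₀ ν → SS ν → Stat ν → ∀ v : E3, ‖v‖ = 1 → Inv ν v → GA (ν (-1)) 0 1 < 2 * om0

variable {μ ν : ℝ → Measure E3} {x₀ : E3} {t₀ a D : ℝ}
  (hμ : IsIntegralBrakkeFlow 2 μ) (h0 : μ 0 univ < ⊤) (hU : IsUnitRegular μ)
  (hc : Par.IsCyclic μ) (ha : 0 < a) (ht : a < t₀) (h : GS μ a D) (H : NoCone μ x₀ t₀)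
  (hb : Lim μ x₀ t₀ ν) (ss : SS ν)
include hμ h0 ha ht h H hb ss

lemma c2 (st : Stat ν) {v p : E3} (hv : ‖v‖ = 1) (iv : Inv ν v) (hp : p ∉ Par.axis v) :
    DL ν p (-1) := fun θ hθ => by
  obtain ⟨ν', -, a1, a2, a3, a7, a4, a5, -, a6⟩ := hb.exists_tangent h
    ((key_ibf hμ h0).later ha.le) ht p 0 (dens_zero st (by norm_num) hθ)
  have a8 : GA (ν' (-1)) 0 1 = θ := a3 1 one_pos
  exact a8 ▸ Itg.p2 hμ h0 h ht (ha.trans ht) a1 a2 (a4 le_rfl st)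
    (fun c => by simp [c] at hv) (fun z c => hp ⟨z, c.symm⟩) (a5 le_rfl v iv) (a6 rfl ss)
    (a7 _) (a8 ▸ H ν' a1 a2 (a4 le_rfl st) v hv (a5 le_rfl v iv))

include hU hc

lemma c1 (st : Stat ν) {p : E3} (hp : p ≠ 0) : DL ν p (-1) := fun θ hθ => by
  obtain ⟨ν', -, a1, a2, a3, -, a4, -, -, a6⟩ := hb.exists_tangent h
    ((key_ibf hμ h0).later ha.le) ht p 0 (dens_zero st (by norm_num) hθ)
  have a8 : GA (ν' (-1)) 0 1 = θ := a3 1 one_pos
  have iv : Inv ν' (‖p‖⁻¹ • p) := fun b s hs => by rw [smul_smul]; exact a6 rfl ss _ s hs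
  exact a8 ▸ l0_lim hμ h0 hU hc h ha.le ht a1 a2 (a4 le_rfl st) (norm_smul_inv_norm hp) iv
    (H ν' a1 a2 (a4 le_rfl st) _ (norm_smul_inv_norm hp) iv) fun q hq =>
      c2 hμ h0 ha ht h H a1 a2 (a4 le_rfl st) (norm_smul_inv_norm hp) iv hq

lemma c0 (y : E3) {t : ℝ} (ht' : t < 0) : DL ν y t := fun θ hθ => by
  obtain ⟨ν', -, a1, a2, a3, -, -, -, a5, -⟩ := hb.exists_tangent h
    ((key_ibf hμ h0).later ha.le) ht y t hθ
  have a8 : GA (ν' (-1)) 0 1 = θ := a3 1 one_pos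
  exact a8 ▸ l1_lim' hμ h0 hU h ha.le ht a1 a2 (a5 ht' ss) fun q hq =>
    c1 hμ h0 hU hc ha ht h H a1 a2 (a5 ht' ss) hq

omit ha ht h hb ss in
/-- some tangent flow is a smooth shrinker of bounded geometry -/
theorem gc' (ht : 0 < t₀) :
    ∃ S : Set E3, IsShr S ∧ BddGeom S ∧ hm S ∈ tangentSlices 2 μ x₀ t₀ := by
  have hs := half_pos ht
  have hst := half_lt_self ht
  have h := gs_proof μ hμ h0 _ hs
  obtain ⟨ε, hg⟩ := exists_eps ((μ 0).real univ / (t₀ / 2))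
  obtain ⟨T, H', hBF⟩ := H552.exists_BF hμ
  obtain ⟨κ, ⟨S, a1, a2, rfl⟩, a3⟩ := Dyn.mem_tangentSlices (x₀ := x₀) hBF h0 ht
    (P := fun κ => ∃ S, IsShr S ∧ BddGeom S ∧ κ = hm S) fun U lam hl => by
      obtain ⟨ν, hB⟩ := exists_blow U hl h x₀ hst
      have hs' := hB.ss h hst ((key_ibf hμ h0).later hs.le)
      obtain ⟨K, hK⟩ := hB.toLim.rsG hg (hg.ibf μ _ hμ h0 hU hs.le h) hst
      obtain ⟨b1, -, -, b2, D', b3⟩ := shr_of hK hs' fun y t ht' =>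
        (hK (t - 1)).memG hg (by linarith) (c0 hμ h0 hU hc hs hst h H hB.toLim hs' y ht')
      exact ⟨ν (-1), ⟨_, b1, bdd_lim hμ h0 hU hs.le h hst hB.toLim hs' b1 b3 rfl
        fun ν' d1 d2 y => c0 hμ h0 hU hc hs hst h H d1 d2 y (by norm_num), b2⟩, hB.lf _,
        hB.lim (-1)⟩
  exact ⟨S, a1, a2, a3⟩

end Vale.Agent.P218R18
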