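import Vale.Agent.P218R18.Core
import Vale.Agent.P218R24.Seq
import Vale.Agent.P218R.St
import Vale.Agent.P218G.StFin

/-! Points at which no blow-up limit is a cone of density two which splits off a line. -/

open MeasureTheory Set Filter Topology Metric

namespace Vale.Agent.P218R18

open Vale.Agent.P218 Vale.Agent.P218G Vale.Agent.P218G.Lit Vale.Agent.P218G.Rg Vale.Agent.P218G.GL
open Vale.Agent.P218.H313.A1 (dil)
open Vale.Agent.P218FT (E3)

variable {μ ν : ℝ → Measure E3} {x₀ : E3} {t₀ a D : ℝ}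

theorem slice_of_lim (h : GS μ a D) (ht : a < t₀) (hb : Lim μ x₀ t₀ ν) :
    P218R.St.IsSliceLimit μ x₀ t₀ (ν (-1)) := by
  obtain ⟨y, τ, lam, h1, h2, h3, h4⟩ := P218R24.lim_seq' hb h ht (-1)
  obtain ⟨ι, U, x, t, l, hb⟩ := hb
  exact ⟨hb.lf _, y, τ, lam, h1, h2, h3, h4⟩

theorem noCone (H : P218R.St.NoDoubleCone μ x₀ t₀) (h : GS μ a D) (ht : a < t₀) :
    NoCone μ x₀ t₀ := fun ν hb ss st v hv iv => by
  have h1 := H _ (slice_of_lim h ht hb) ⟨fun c hc => by
    simpa only [dil, sub_zero] using ss.cone st hc, v, fun c => by simp [c] at hv, fun b => by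
    simpa only [dil, one_pow, ENNReal.ofReal_one, one_smul, neg_smul, sub_neg_eq_add]
      using iv (-b) (-1) (by norm_num)⟩
  rw [densityRatio_eq, one_pow, show St.planeDensity = om0 / (4 * Real.pi) from rfl,
    ← mul_div_assoc, div_lt_div_iff_of_pos_right (by positivity)] at h1
  exact h1

/-- some tangent flow is a smooth shrinker of bounded geometry -/
theorem case_two (hμ : IsIntegralBrakkeFlow 2 μ) (hU : St.IsUnitRegular μ)
    (hR : ∃ R : ℝ, μ 0 (closedBall 0 R)ᶜ = 0) (x₀ : E3) (t₀ : ℝ) (ht : 0 < t₀)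
    (hc : St.IsCyclic μ) (H : P218R.St.NoDoubleCone μ x₀ t₀) :
    ∃ S, St.IsSelfShrinker S ∧ St.BddGeom S ∧ St.hm S ∈ tangentSlices 2 μ x₀ t₀ := by
  obtain ⟨R, hR⟩ := hR
  have h0 := mass_lt hμ hR
  obtain ⟨S, a1, a2, a3⟩ := gc' hμ h0 hU.lit hc
    (noCone H (gs_proof μ hμ h0 _ (half_pos ht)) (half_lt_self ht)) ht
  exact ⟨S, (isShr_iff S).2 a1, a2, a3⟩

end Vale.Agent.P218R18
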